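import Vale.Agent.P092BL.Erg
import Vale.Agent.P092RD.Mag
import Vale.Agent.P092MG.Op

/-!
P092, block COM-TD (helper11): from the magic pair to the commutation of all translates.
-/

set_option linter.all false

open scoped InnerProductSpace ENNReal NNReal
open MeasureTheory Filter Topology ContinuousLinearMap Set

namespace Vale.Agent.P092CT

open Vale.Agent.P092CP Vale.Agent.P092RD Vale.Agent.P092GK Vale.Agent.P092GB Vale.Agent.P092MG
open Vale.Agent.P092BL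
open Vale.Agent.P092.H15 (HMG)

/-- the statement of the blocks E4 and E5 -/
def AC : Prop :=
  ∀ {G G' K : Type} [Group G] [TopologicalSpace G] [IsTopologicalGroup G]
    [LocallyCompactSpace G] [SecondCountableTopology G] [T2Space G] [MeasurableSpace G]
    [BorelSpace G] [Group G'] [TopologicalSpace G'] [IsTopologicalGroup G'] [LocallyCompactSpace G']
    [SecondCountableTopology G'] [T2Space G'] [MeasurableSpace G'] [BorelSpace G']
    [NormedAddCommGroup K] [InnerProductSpace ℂ K] [CompleteSpace K] {μ : Measure G}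
    [μ.IsHaarMeasure] {μ' : Measure G'} [μ'.IsHaarMeasure] {W : Set (K →L[ℂ] K)}
    {C : Cpl μ μ' W} {D : MnD G} {D' : MnD G'} {θ : Set G' → K →L[ℂ] K} {Θ : Set G → K →L[ℂ] K}
    {σ σ' : Type} {Es : σ → PnD G} {Es' : σ' → PnD G'} {N : ℕ} {τ : ℕ → σ} {w : ℕ → G},
    Bld D Es → Bld D' Es' → Gal D Es N τ w → Mag C D D' θ Θ → (∀ i, Erg C (Es i).I) →
      (∀ j, Erg C.swap (Es' j).I) → ∀ g, Cmg C D' θ g

variable {G G' K : Type} [Group G] [TopologicalSpace G] [IsTopologicalGroup G]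
  [LocallyCompactSpace G] [SecondCountableTopology G] [T2Space G] [MeasurableSpace G] [BorelSpace G]
  [Group G'] [TopologicalSpace G'] [IsTopologicalGroup G'] [LocallyCompactSpace G']
  [SecondCountableTopology G'] [T2Space G'] [MeasurableSpace G'] [BorelSpace G']
  [NormedAddCommGroup K] [InnerProductSpace ℂ K] [CompleteSpace K] {μ : Measure G}
  [μ.IsHaarMeasure] {μ' : Measure G'} [μ'.IsHaarMeasure] {W : Set (K →L[ℂ] K)}
  {C : Cpl μ μ' W} {D' : MnD G'} {θ : Set G' → K →L[ℂ] K} {Θ : Set G → K →L[ℂ] K}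

/-- commutation on open sets is enough -/
theorem com_of_open {Z : Type} [TopologicalSpace Z] [MeasurableSpace Z] [BorelSpace Z]
    {ϑ : POM Z K} (hP : ϑ.IsP) (S : Side μ W) {g : G}
    (h : ∀ A B, IsOpen A → IsOpen B →
      ϑ.P A * (S.π g * ϑ.P B * S.π g⁻¹) = S.π g * ϑ.P B * S.π g⁻¹ * ϑ.P A)
    {f f' : Z → ℂ} (hf : Bd f) (hf' : Bd f') :
    ϑ.f f * (S.π g * ϑ.f f' * S.π g⁻¹) = S.π g * ϑ.f f' * S.π g⁻¹ * ϑ.f f := by
  have hP' := hP.cj (S.star_π g) (pi_mul_inv g) (pi_inv_mul g)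
  refine (POM.cls_comm (ϑ.cj _ _ (S.star_π g) (pi_mul_inv g)) (ϑ.f f)).of_pi
    BorelSpace.measurable_eq isPiSystem_isOpen (by rw [hP'.one, mul_one, one_mul])
    (fun B hB => ?_) f' hf'
  exact ((POM.cls_comm ϑ _).of_pi BorelSpace.measurable_eq isPiSystem_isOpen
    (by rw [hP.one, mul_one, one_mul]) (fun A hA => (h A B hA hB).symm) f hf).symm

/-- from the set functions of the blocks E4 and E5 to the calculus -/
theorem com_of_cmg {Z : Type} [TopologicalSpace Z] [MeasurableSpace Z] [BorelSpace Z]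
    {ϑ : POM Z K} (hP : ϑ.IsP) {n : G}
    (hθ : ∀ S, IsOpen S → ∃ A, RI D'.H A ∧ θ A = cj C.s.π n (ϑ.P S)) (h : ∀ g, Cmg C D' θ g)
    (g : G) {f f' : Z → ℂ} (hf : Bd f) (hf' : Bd f') :
    ϑ.f f * (C.s.π g * ϑ.f f' * C.s.π g⁻¹) = C.s.π g * ϑ.f f' * C.s.π g⁻¹ * ϑ.f f := by
  refine com_of_open hP C.s (fun A B hA hB => ?_) hf hf'
  obtain ⟨A', a1, a2⟩ := hθ A hA
  obtain ⟨B', b1, b2⟩ := hθ B hB
  have h1 := congrArg (cj C.s.π n⁻¹) (h (n * g * n⁻¹) B' A' b1 a1)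
  rw [a2, b2, cj_mul, cj_mul, cj_inv_cj, cj_cj, cj_cj,
    show n⁻¹ * (n * g * n⁻¹) * n = g by group] at h1
  exact h1.symm

variable {k k' : Type} [NontriviallyNormedField k] [ProperSpace k] [NontriviallyNormedField k']
  [ProperSpace k'] {r r' : ℕ} {F : FlD k G r} {F' : FlD k' G' r'} {s : Fin r → G} {N : ℕ}
  {τ : ℕ → Fin r} {w : ℕ → G} {s' : Fin r' → G'} {N' : ℕ} {τ' : ℕ → Fin r'} {w' : ℕ → G'}

/-- the group data of one side -/
structure Gd (F : FlD k G r) : Prop where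
  fl : Fl F
  pan : ∃ s N τ w, Pan F s N τ w
  hm : HMG G
  rk : 2 ≤ r
  td : TD G

theorem Gd.bld (g : Gd F) {D : MnD G} (hD : D = Dm F ∨ D = Dp F) :
    ∃ (Es : Fin r → PnD G) (N : ℕ) (τ : ℕ → Fin r) (w : ℕ → G), Bld D Es ∧ Gal D Es N τ w ∧
      ∀ i, P092.RC.Moore ((Es i).I : Set G) := by
  obtain ⟨s, N, τ, w, hp⟩ := g.pan
  rcases hD with rfl | rfl
  · exact ⟨_, N, τ, w, bld_m g.fl hp g.td, gal_m g.fl hp,
      fun i => moore_U' g.hm g.fl hp (erase_ne g.rk i)⟩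
  · exact ⟨_, N, τ, w, bld_p g.fl hp g.td, gal_p g.fl hp,
      fun i => moore_U g.hm g.fl hp (erase_ne g.rk i)⟩

/-- **COM-TD** from the magic pair -/
theorem com_of_mag (ac : AC) (g : Gd F) (g' : Gd F') {D : MnD G} (hD : D = Dm F ∨ D = Dp F)
    (hD' : D' = Dm F' ∨ D' = Dp F') (m : Mag C D D' θ Θ)
    {Z : Type} [TopologicalSpace Z] [MeasurableSpace Z] [BorelSpace Z] {ϑ : POM Z K} (hP : ϑ.IsP)
    {n : G} (hθ : ∀ S, IsOpen S → ∃ A, RI D'.H A ∧ θ A = cj C.s.π n (ϑ.P S)) (x : G)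
    {f f' : Z → ℂ} (hf : Bd f) (hf' : Bd f') :
    ϑ.f f * (C.s.π x * ϑ.f f' * C.s.π x⁻¹) = C.s.π x * ϑ.f f' * C.s.π x⁻¹ * ϑ.f f := by
  obtain ⟨Es, N, τ, w, b, ga, e⟩ := g.bld hD
  obtain ⟨Es', -, -, -, b', -, e'⟩ := g'.bld hD'
  exact com_of_cmg hP hθ (ac b b' ga m (fun i => erg_of C (e i)) fun j => erg_of C.swap (e' j)) x
    hf hf'

end Vale.Agent.P092CT
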