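import Vale.Agent.P092GK.LiftR
import Vale.Agent.P092RK.RDefs

/-!
P092, block REL (D) (helper11): the abstract relation applied to the pair `(σ_{n₀} E, E)`.
-/

set_option linter.all false

open scoped InnerProductSpace ENNReal NNReal
open MeasureTheory Filter Topology ContinuousLinearMap Set

namespace Vale.Agent.P092CT

open Vale.Agent.P092CP Vale.Agent.P092RD Vale.Agent.P092RD.POM Vale.Agent.P092GK Vale.Agent.P092TH
open Vale.Agent.P092HR Vale.Agent.P092RK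

variable {k : Type} [NontriviallyNormedField k] [ProperSpace k] {G K : Type} [Group G]
  [TopologicalSpace G] [IsTopologicalGroup G] [LocallyCompactSpace G] [SecondCountableTopology G]
  [T2Space G] [MeasurableSpace G] [BorelSpace G] [NormedAddCommGroup K] [InnerProductSpace ℂ K]
  [CompleteSpace K] {μ : Measure G} [μ.IsHaarMeasure] {W : Set (K →L[ℂ] K)} {r : ℕ}
  {X : Type} [NormedAddCommGroup X] [NormedSpace ℝ X] {F : FlD k G r} {C : Cpl μ μ W} {z : ℕ → G}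
  {L : Aa r →ₗ[ℝ] Aa r} {kl : G → G} {E : POM (YY F) K} {θ₀ : POM (ZZ F) K}

/-- the opposition on `𝔞` -/
def op (F : FlD k G r) : Aa r →ₗ[ℝ] Aa r := LinearMap.funLeft ℝ ℝ F.ι

theorem op_apply (x : Aa r) : op F x = x ∘ F.ι := rfl

/-- the pairing of two opposite flags -/
noncomputable def dl (F : FlD k G r) : YY F × YY F → Aa r :=
  (F.Op (PP F) (PP F)).indicator fun q => F.ℓ (F.n₀ * q.1.out⁻¹ * q.2.out) -
    op F (F.co (F.ht q.1.out)) - F.co (F.ht q.2.out)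

theorem dl_mk (h : Fl F) {g g' : G} (hg : F.n₀ * g⁻¹ * g' ∈ F.Ω) :
    dl F (g, g') = F.ℓ (F.n₀ * g⁻¹ * g') - op F (F.co (F.ht g)) - F.co (F.ht g') := by
  obtain ⟨x, hx, h1⟩ := out_mem (PP F) g
  obtain ⟨y, hy, h2⟩ := out_mem (PP F) g'
  rw [dl, indicator_of_mem ((h.op_mk le_rfl le_rfl g g').2 hg)]
  show F.ℓ (F.n₀ * (g : YY F).out⁻¹ * (g' : YY F).out) - op F (F.co (F.ht (g : YY F).out)) -
    F.co (F.ht (g' : YY F).out) = _
  rw [h1, h2, show F.n₀ * (g * x)⁻¹ * (g' * y) = F.n₀ * (x⁻¹ * (g⁻¹ * g') * y) by group,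
    h.pair_ℓ hx hy (mul_assoc F.n₀ _ _ ▸ hg), h.co_ht_P hx, h.co_ht_P hy, map_add, ← mul_assoc,
    op_apply (F.ℓ x)]
  abel

theorem contOn_dl (h : Fl F) : ContinuousOn (dl F) (F.Op (PP F) (PP F)) := by
  have c := (FlD.cont_co (F := F)).comp h.cont_ht
  refine cont_quo₂ (h.isOpen_Op le_rfl le_rfl) ((((h.contOn_ℓ.comp
    (f := fun q : G × G => F.n₀ * q.1⁻¹ * q.2) (by fun_prop)
      fun q hq => (h.op_mk le_rfl le_rfl _ _).1 hq).sub
        ((op F).continuous_of_finiteDimensional.comp (c.comp continuous_fst)).continuousOn).sub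
          (c.comp continuous_snd).continuousOn).congr fun q hq => ?_)
  exact dl_mk h ((h.op_mk le_rfl le_rfl _ _).1 hq)

theorem meas_dl (h : Fl F) : Measurable (dl F) := by
  classical
  have h1 := (contOn_dl h).measurable_piecewise (continuousOn_const (c := (0 : Aa r)))
    (h.isOpen_Op le_rfl le_rfl).measurableSet
  have e : dl F = (F.Op (PP F) (PP F)).piecewise (dl F) fun _ => 0 := funext fun q => by
    by_cases hq : q ∈ F.Op (PP F) (PP F)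
    · rw [piecewise_eq_of_mem _ _ _ hq]
    · rw [piecewise_eq_of_notMem _ _ _ hq, dl, indicator_of_notMem hq]
  rw [e]
  exact h1

theorem dl_smul (h : Fl F) (s : G) {x y : YY F} (hq : (x, y) ∈ F.Op (PP F) (PP F)) :
    dl F (s • x, s • y) + op F (F.cc s x) + F.cc s y = dl F (x, y) := by
  obtain ⟨g, rfl⟩ := QuotientGroup.mk_surjective x
  obtain ⟨g', rfl⟩ := QuotientGroup.mk_surjective y
  have h1 := (h.op_mk le_rfl le_rfl _ _).1 hq
  have e : F.n₀ * (s * g)⁻¹ * (s * g') = F.n₀ * g⁻¹ * g' := by group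
  rw [mk_smul, mk_smul, dl_mk h (e ▸ h1), dl_mk h h1, h.cc_mk, h.cc_mk, e, map_sub]
  abel

theorem geo (h : Fl F) (τ : Aa r →ₗ[ℝ] ℝ) : Geo (F.Op (PP F) (PP F)) (fun q => τ (dl F q))
    (fun (s : G) x => (τ ∘ₗ op F) (F.cc s x)) fun (s : G) y => τ (F.cc s y) where
  opn := h.isOpen_Op le_rfl le_rfl
  inv s x y hq := (h.op_smul le_rfl le_rfl s x y).2 hq
  meas := τ.continuous_of_finiteDimensional.measurable.comp (meas_dl h)
  cont := τ.continuous_of_finiteDimensional.comp_continuousOn (contOn_dl h)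
  mco s := ((τ ∘ₗ op F).continuous_of_finiteDimensional.comp
    (h.cont_cc.comp (Continuous.prodMk_right s))).measurable
  cco := τ.continuous_of_finiteDimensional.comp h.cont_cc
  coc s s' y := by rw [h.cc_mul, map_add]
  rel s x y hq := by rw [LinearMap.comp_apply, ← map_add, ← map_add, dl_smul h s hq]

/-- the pairing on a cone in polar coordinates -/
theorem dd_eq (h : Fl F) {H : Subgroup G} {t : Aa r →ₗ[ℝ] X} (e : F.Ht H t)
    (hι : ∀ x, t x = 0 → t (x ∘ F.ι) = 0) {j : X →ₗ[ℝ] X} (hj : ∀ x, j (t x) = t (op F x))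
    {ζ ζ' : G ⧸ H} (hq : (ζ, ζ') ∈ F.Op H H) : F.dd H t (ζ, ζ') =
      j (F.hq H t ζ) + F.hq H t ζ' + t (dl F (F.dir H _ ζ, F.dir H _ ζ')) := by
  obtain ⟨g, rfl⟩ := QuotientGroup.mk_surjective ζ
  obtain ⟨g', rfl⟩ := QuotientGroup.mk_surjective ζ'
  have h1 := (h.op_mk e.le e.le _ _).1 hq
  rw [h.dd_mk e hι h1, h.dir_mk e, h.dir_mk e, dl_mk h h1, h.hq_mk e, h.hq_mk e, hj, map_sub,
    map_sub]
  abel

theorem n₀_inv (h : Fl F) {p : G} (hp : p ∈ F.Z) : F.n₀⁻¹ * p * F.n₀ ∈ F.Z :=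
  (h.n₀Z _).2 (by simpa [mul_assoc] using hp)

theorem conj_tr (S : Side μ W) (p n : G) (x : K →L[ℂ] K) :
    S.π p * (S.π n * x * S.π n⁻¹) * S.π p⁻¹ =
      S.π n * (S.π (n⁻¹ * p * n) * x * S.π (n⁻¹ * p * n)⁻¹) * S.π n⁻¹ := by
  rw [S.conj_conj, S.conj_conj, show n * (n⁻¹ * p * n) = p * n by group]

theorem xm_tr {Y : Type} [MeasurableSpace Y] [MulAction G Y] {E : POM Y K} {S : Set G}
    {κ : G → Y → ℂ} {a : K →L[ℂ] K} (ha : a ∈ Xm C S E κ) (n : G) :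
    C.s.π n * a * C.s.π n⁻¹ ∈ Xm C ∅ (tr C.s n E) κ :=
  ⟨C.s.conj _ ha.1 n, fun φ hφ => by
    rw [tr_f, ← C.s.conj_mul, ← C.s.conj_mul, ha.2.1 φ hφ], fun s hs => hs.elim, fun s => by
    rw [← conj_comm, ha.2.2.2, C.s.conj_mul, tr_f]⟩

/-- the boundary calculus is the limit of the windows on the flag space -/
def LMY (F : FlD k G r) (C : Cpl μ μ W) (z : ℕ → G) (E : POM (YY F) K) : Prop :=
  ∃ (U : Ultrafilter ℕ) (V : Set G) (y : YY F), (U : Filter ℕ) ≤ atTop ∧ Bp μ V ∧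
    ∀ B, Bp μ B → Lm C U (fun n => un μ B (z n)) V (fun _ => y) E

theorem one_of (g : Gr F) (T : T0 F C z L E θ₀) : ∃ c : ℂ, c ≠ 0 ∧ θ₀.f 1 = c • 1 :=
  (T.inv.one g.moore_up).imp fun c hc => ⟨fun h => T.ne (by rw [hc, h, zero_smul]), hc⟩

/-- **the relation for one height** -/
theorem out_of (hc : CORE C (YY F) (YY F) (ZZ F)) (g : Gr F) (p : P1 F C z L kl E)
    (hl : LMY F C z E) (T : T0 F C z L E θ₀) (τ : Aa r →ₗ[ℝ] ℝ) {H₁ H₂ : POM ℝ K} (h₁ : H₁.IsP)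
    (h₂ : H₂.IsP) (m₁ : ∀ s, H₁.f (ex s id) ∈ Xt F C E (τ ∘ₗ op F) s)
    (m₂ : ∀ s, H₂.f (ex s id) ∈ Xt F C E τ s) : ∃ c, Out (tr C.s F.n₀ E) E (tr C.s F.n₀ H₁) H₂
      (F.Op (PP F) (PP F)) (fun q => τ (dl F q)) c := by
  have h := g.fl
  obtain ⟨U, V, y, hU, hV, hl⟩ := hl
  obtain ⟨c, c0, c1⟩ := one_of g T
  have i := p.eb.inv
  have hz := fun n => h.z_mem_P (n₀_inv h (p.dom n).1) Finset.univ
  haveI := C.t.right
  haveI := h.isClosed_P Finset.univ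
  refine hc V y (F.dir _ _) _ _ _ _ F.Up _ _ _ _ (tr C.s F.n₀ θ₀) U z (geo h τ)
    ⟨(h.cont_dir h.Ht_N _).measurable, ⟨isP_tr _ _ p.eb.isP, fun f hf => C.s.conj _ (i.cm f hf) _,
      cov_tr C _ i.cov⟩, ⟨p.eb.isP, i.cm, i.cov⟩, isP_tr _ _ h₁, h₂, fun s => xm_tr (m₁ s) _, m₂,
      ⟨fun f hf => C.s.conj _ (T.inv.cm f hf) _, cov_tr C _ T.inv.cov, fun φ f hφ hf => by
        rw [tr_f, tr_f, tr_f, T.mod φ f hφ hf, C.s.conj_mul]⟩,
      ⟨c, c0, by rw [tr_f, c1, mul_smul_comm, smul_mul_assoc, mul_one, pi_mul_inv]⟩,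
      fun S Q Q' hS hQ hQ' hs => ?_⟩ fun s => ⟨hV, g.moore_up, fun n φ hφ => ?_, fun n => ?_,
        fun O hO => ?_, fun u hu N hN => ?_⟩
  · obtain ⟨c, h1, h2⟩ := h.pr_opp μ h.Ht_N Function.injective_id (hQ'.prod (hS.inter_right
      (hQ.isClosed.preimage (h.cont_dir h.Ht_N Finset.univ)))) fun q hq => h.op_swap h.Ht_N.le le_rfl
        ((h.op_dir_left _ _ le_rfl).1 (hs (mk_mem_prod hq.2.2 hq.1)))
    exact ⟨c, h1, h2⟩
  · rw [tr_f, conj_tr, i.inv _ (hz n) φ hφ]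
  · exact ⟨_, by rw [tr_f, conj_tr, T.spd _ s _ (hz n) _ (m₁ s), mul_smul_comm, smul_mul_assoc]⟩
  · obtain ⟨B, h1, h2, h3⟩ := local_compact_nhds hO
    have hB : Bp μ B := ⟨h3, (Measure.measure_pos_of_mem_nhds μ h1).ne'⟩
    exact ⟨B, h2, hB, hl B hB⟩
  · obtain ⟨R, -, hR⟩ := h.up_contr (isCompact_singleton (x := u)) hN
    refine hU (mem_map.2 ?_)
    filter_upwards [eventually_all.2 fun i => (p.top i).eventually_ge_atTop R] with n hn
    exact hR _ (p.dom n).1 hn u rfl hu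

end Vale.Agent.P092CT
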