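import Vale.Agent.P092CT.Geo

/-!
P092, block REL (D) (helper11): the speed commutes with the opposition; the relation on a pair of
cones.
-/

set_option linter.all false

open scoped InnerProductSpace ENNReal NNReal
open MeasureTheory Filter Topology ContinuousLinearMap Set

namespace Vale.Agent.P092CT

open Vale.Agent.P092CP Vale.Agent.P092RD Vale.Agent.P092RD.POM Vale.Agent.P092GK Vale.Agent.P092TH
open Vale.Agent.P092HR Vale.Agent.P092RK
open Vale.Agent.P092MA (Fam Rel)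

section abs

variable {K : Type} [NormedAddCommGroup K] [InnerProductSpace ℂ K] [CompleteSpace K]
  {Y Y' : Type} [TopologicalSpace Y] [MeasurableSpace Y] [TopologicalSpace Y'] [MeasurableSpace Y']
  {E : POM Y K} {E' : POM Y' K} {H H' : POM ℝ K} {Op : Set (Y × Y')} {δ : Y × Y' → ℝ} {c d : ℝ}

theorem out_zero (hH : H.IsP) (hH' : H'.IsP) (hδ : ContinuousOn δ Op) (hd : d ≠ 0)
    (h : ∀ n : ℕ, Out E E' H H' Op δ (c - n * d)) {Q : Set Y} {Q' : Set Y'} (hQ : IsCompact Q)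
    (hQ' : IsCompact Q') (hs : Q ×ˢ Q' ⊆ Op) : E.P Q * E'.P Q' = 0 := by
  obtain ⟨D, hD⟩ := (hQ.prod hQ').exists_bound_of_continuousOn (hδ.mono hs)
  have m : ∀ R : ℕ, MeasurableSet (Icc (-(R : ℝ)) R) := fun R => measurableSet_Icc
  have mo : Monotone fun R : ℕ => Icc (-(R : ℝ)) R := fun R R' e =>
    Icc_subset_Icc (neg_le_neg (Nat.cast_le.2 e)) (Nat.cast_le.2 e)
  have un : ⋃ R : ℕ, Icc (-(R : ℝ)) R = univ := eq_univ_of_forall fun x => by
    obtain ⟨R, hR⟩ := exists_nat_ge |x|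
    exact mem_iUnion_of_mem R (abs_le.1 hR)
  have key : ∀ R : ℕ, H.P (Icc (-(R : ℝ)) R) * E.P Q * (E'.P Q' * H'.P (Icc (-(R : ℝ)) R)) = 0 :=
    fun R => by
      obtain ⟨n, hn⟩ := exists_nat_gt ((R + R + D + |c|) / |d|)
      rw [div_lt_iff₀ (abs_pos.2 hd)] at hn
      refine h n _ _ _ _ (m R) (m R) hQ hQ' hs fun a ha b hb x hx y hy e => ?_
      have h1 := abs_le.1 (hD (x, y) (mk_mem_prod hx hy))
      have h2 : |(n : ℝ) * d| ≤ R + R + D + |c| := abs_le.2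
        ⟨by linarith [ha.2, hb.2, h1.2, neg_abs_le c], by linarith [ha.1, hb.1, h1.1, le_abs_self c]⟩
      rw [abs_mul, Nat.abs_cast] at h2
      linarith
  refine ext_inner fun η ξ => tendsto_nhds_unique ?_ (tendsto_const_nhds (f := (atTop : Filter ℕ)))
  have h1 := H.tendsto_P_iUnion m mo η
  have h2 := H'.tendsto_P_iUnion m mo ξ
  rw [un, hH.P_univ] at h1
  rw [un, hH'.P_univ] at h2
  refine (h1.inner (𝕜 := ℂ) (((E.P Q * E'.P Q').continuous.tendsto _).comp h2)).congr fun R => ?_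
  rw [H.inner_P_left (m R), ← key R]
  rfl

theorem out_shift (h : Out E E' H H' Op δ c) {s : (K →L[ℂ] K) → K →L[ℂ] K}
    (sm : ∀ x y, s (x * y) = s x * s y) (s0 : s 0 = 0) [OpensMeasurableSpace Y] [T2Space Y]
    [OpensMeasurableSpace Y'] [T2Space Y'] (hE : ∀ A, MeasurableSet A → s (E.P A) = E.P A)
    (hE' : ∀ A, MeasurableSet A → s (E'.P A) = E'.P A) {a b : ℝ}
    (ha : ∀ A, MeasurableSet A → s (H.P A) = H.P ((fun v => v + a) ⁻¹' A))
    (hb : ∀ A, MeasurableSet A → s (H'.P A) = H'.P ((fun v => v + b) ⁻¹' A)) :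
    Out E E' H H' Op δ (c - (a + b)) := fun I J Q Q' hI hJ hQ hQ' hs e => by
  have m := fun (t : ℝ) {A : Set ℝ} (hA : MeasurableSet A) => measurable_sub_const t hA
  have := congrArg s (h _ _ Q Q' (m a hI) (m b hJ) hQ hQ' hs fun u hu v hv x hx y hy e' =>
    e _ hu _ hv x hx y hy (by linarith))
  rw [sm, sm, sm, s0, hE _ hQ.measurableSet, hE' _ hQ'.measurableSet, ha _ (m a hI), hb _ (m b hJ),
    ← preimage_comp, ← preimage_comp] at this
  simpa [Function.comp_def] using this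

variable {θ : POM Y K} {θ' : POM Y' K} {T : K →L[ℂ] K}

theorem zero_union (hθ : θ.IsP) {A B : Set Y} (hA : MeasurableSet A) (hB : MeasurableSet B)
    (h1 : θ.P A * T = 0) (h2 : θ.P B * T = 0) : θ.P (A ∪ B) * T = 0 := by
  rw [← union_diff_self, θ.P_union hA (hB.diff hA) disjoint_sdiff_right, add_mul, h1,
    ← hθ.P_sub (hB.diff hA) hB diff_subset, mul_assoc, h2, mul_zero, add_zero]

theorem zero_mono (hθ : θ.IsP) {A B : Set Y} (hA : MeasurableSet A) (hB : MeasurableSet B)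
    (hs : A ⊆ B) (h : θ.P B * T = 0) : θ.P A * T = 0 := by
  rw [← hθ.P_sub hA hB hs, mul_assoc, h, mul_zero]

theorem star_zero_iff {A : Set Y} {B : Set Y'} (hA : MeasurableSet A) (hB : MeasurableSet B)
    (h : θ.P A * θ'.P B = 0) : θ'.P B * θ.P A = 0 := by
  have := congrArg star h
  rwa [star_mul, θ.star_P hA, θ'.star_P hB, star_zero] at this

/-- local vanishing on a compact product -/
theorem zero_cover [OpensMeasurableSpace Y] [T2Space Y] [OpensMeasurableSpace Y'] [T2Space Y']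
    (hθ : θ.IsP) (hθ' : θ'.IsP) {P : Set Y} {S : Set Y'} (hP : IsCompact P) (hS : IsCompact S)
    (h : ∀ x ∈ P, ∀ y ∈ S, ∃ N ∈ 𝓝 x, ∃ N' ∈ 𝓝 y, MeasurableSet N ∧ MeasurableSet N' ∧
      θ.P N * θ'.P N' = 0) : θ.P P * θ'.P S = 0 := by
  have h1 : ∀ x ∈ P, ∃ N ∈ 𝓝 x, MeasurableSet N ∧ ∃ A, S ⊆ A ∧ MeasurableSet A ∧
      θ'.P A * θ.P N = 0 := fun x hx => by
    refine hS.induction_on (p := fun S => ∃ N ∈ 𝓝 x, MeasurableSet N ∧ ∃ A, S ⊆ A ∧
      MeasurableSet A ∧ θ'.P A * θ.P N = 0) ⟨univ, univ_mem, .univ, ∅, subset_rfl, .empty, by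
        rw [θ'.P_empty, zero_mul]⟩ (fun s t e ⟨N, a, b, A, c, d⟩ => ⟨N, a, b, A, e.trans c, d⟩)
      ?_ fun y hy => ?_
    · rintro s t ⟨N, a, b, A, c, d, e⟩ ⟨N', a', b', A', c', d', e'⟩
      refine ⟨N ∩ N', inter_mem a a', b.inter b', A ∪ A', union_subset_union c c', d.union d',
        zero_union hθ' d d' ?_ ?_⟩
      · rw [hθ.P_inter b b', ← mul_assoc, e, zero_mul]
      · rw [inter_comm, hθ.P_inter b' b, ← mul_assoc, e', zero_mul]
    · obtain ⟨N, a, N', a', b, b', e⟩ := h x hx y hy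
      exact ⟨N', nhdsWithin_le_nhds a', N, a, b, N', subset_rfl, b', star_zero_iff b b' e⟩
  obtain ⟨A, a, b, c⟩ := hP.induction_on
    (p := fun P => ∃ A, P ⊆ A ∧ MeasurableSet A ∧ θ.P A * θ'.P S = 0)
    ⟨∅, subset_rfl, .empty, by rw [θ.P_empty, zero_mul]⟩
    (fun s t e ⟨A, c, d⟩ => ⟨A, e.trans c, d⟩)
    (fun s t ⟨A, c, d, e⟩ ⟨A', c', d', e'⟩ =>
      ⟨A ∪ A', union_subset_union c c', d.union d', zero_union hθ d d' e e'⟩) fun x hx => by
      obtain ⟨N, a, b, A, c, d, e⟩ := h1 x hx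
      exact ⟨N, nhdsWithin_le_nhds a, N, subset_rfl, b, star_zero_iff hS.measurableSet b
        (zero_mono hθ' hS.measurableSet d c e)⟩
  exact zero_mono hθ hP.measurableSet b a c

/-- neighbourhoods on which the relation fails -/
theorem exists_box [LocallyCompactSpace Y] [LocallyCompactSpace Y'] (ho : IsOpen Op)
    (hδ : ContinuousOn δ Op) {x : Y} {y : Y'} (hq : (x, y) ∈ Op) {a b : ℝ}
    (e : a + b + δ (x, y) ≠ c) : ∃ I ∈ 𝓝 a, ∃ J ∈ 𝓝 b, ∃ Q ∈ 𝓝 x, ∃ Q' ∈ 𝓝 y, IsOpen I ∧ IsOpen J ∧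
      IsCompact Q ∧ IsCompact Q' ∧ Q ×ˢ Q' ⊆ Op ∧
        ∀ a ∈ I, ∀ b ∈ J, ∀ x ∈ Q, ∀ y ∈ Q', a + b + δ (x, y) ≠ c := by
  have h1 : ContinuousAt (fun w : (ℝ × ℝ) × Y × Y' => w.1.1 + w.1.2 + δ w.2) ((a, b), (x, y)) :=
    (continuous_fst.fst.add continuous_fst.snd).continuousAt.add
      (ContinuousAt.comp (f := Prod.snd) (hδ.continuousAt (ho.mem_nhds hq)) continuousAt_snd)
  obtain ⟨A, hA, B, hB, h2⟩ := mem_nhds_prod_iff.1 (h1.eventually_ne e)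
  obtain ⟨I, hI, J, hJ, h3⟩ := mem_nhds_prod_iff.1 hA
  obtain ⟨Q₀, hQ, Q₀', hQ', h4⟩ := mem_nhds_prod_iff.1 (inter_mem hB (ho.mem_nhds hq))
  obtain ⟨Q, q1, q2, q3⟩ := local_compact_nhds hQ
  obtain ⟨Q', r1, r2, r3⟩ := local_compact_nhds hQ'
  exact ⟨_, interior_mem_nhds.2 hI, _, interior_mem_nhds.2 hJ, Q, q1, Q', r1, isOpen_interior,
    isOpen_interior, q3, r3, fun w hw => (h4 ⟨q2 hw.1, r2 hw.2⟩).2, fun a ha b hb x hx y hy =>
      h2 (mk_mem_prod (h3 (mk_mem_prod (interior_subset ha) (interior_subset hb)))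
        (h4 (mk_mem_prod (q2 hx) (r2 hy))).1)⟩

end abs

variable {k : Type} [NontriviallyNormedField k] [ProperSpace k] {G K : Type} [Group G]
  [TopologicalSpace G] [IsTopologicalGroup G] [LocallyCompactSpace G] [SecondCountableTopology G]
  [T2Space G] [MeasurableSpace G] [BorelSpace G] [NormedAddCommGroup K] [InnerProductSpace ℂ K]
  [CompleteSpace K] {μ : Measure G} [μ.IsHaarMeasure] {W : Set (K →L[ℂ] K)} {r : ℕ}
  {X : Type} [NormedAddCommGroup X] [NormedSpace ℝ X] {F : FlD k G r} {C : Cpl μ μ W} {z : ℕ → G}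
  {L : Aa r →ₗ[ℝ] Aa r} {kl : G → G} {E : POM (YY F) K} {θ₀ : POM (ZZ F) K}
  {H H' : Subgroup G} {t : Aa r →ₗ[ℝ] X} {θ : POM (G ⧸ H') K} {ϑ : G ⧸ H → POM (G ⧸ H') K}

/-- opposite open sets are not orthogonal -/
def NdOp (F : FlD k G r) (C : Cpl μ μ W) (E : POM (YY F) K) : Prop :=
  ∀ U U' : Set (YY F), IsOpen U → U.Nonempty → IsOpen U' → U'.Nonempty →
    E.P U * (C.s.π F.n₀ * E.P U' * C.s.π F.n₀⁻¹) ≠ 0

theorem iota_of (hc : CORE C (YY F) (YY F) (ZZ F)) (g : Gr F) (p : P1 F C z L kl E)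
    (hl : LMY F C z E) (hn : NdOp F C E) (T : T0 F C z L E θ₀) (x : Aa r) :
    L (x ∘ F.ι) = L x ∘ F.ι := by
  have h := g.fl
  haveI := h.isClosed_P Finset.univ
  have key : ∀ a ∈ F.Z, ∀ τ : Aa r →ₗ[ℝ] ℝ,
      (τ ∘ₗ op F) (L (F.ℓ (F.n₀⁻¹ * a * F.n₀))) + τ (L (F.ℓ a)) = 0 := fun a ha τ => by
    by_contra hd
    obtain ⟨u₁, a1, a2⟩ := T.uni (τ ∘ₗ op F)
    obtain ⟨u₂, b1, b2⟩ := T.uni τ
    obtain ⟨H₁, c1, c2, -⟩ := P092SB.stone a1
    obtain ⟨H₂, d1, d2, -⟩ := P092SB.stone b1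
    have m₁ := fun s => (c2 s).symm ▸ (a2 s).1
    have m₂ := fun s => (d2 s).symm ▸ (b2 s).1
    obtain ⟨c, h0⟩ := out_of hc g p hl T τ c1 d1 m₁ m₂
    have pa := h.z_mem_P ha Finset.univ
    have pa' := h.z_mem_P (n₀_inv h ha) Finset.univ
    have i := p.eb.inv.inv
    have h1 : ∀ n : ℕ, Out (tr C.s F.n₀ E) E (tr C.s F.n₀ H₁) H₂ (F.Op (PP F) (PP F))
        (fun q => τ (dl F q)) (c - n * ((τ ∘ₗ op F) (L (F.ℓ (F.n₀⁻¹ * a * F.n₀))) +
          τ (L (F.ℓ a)))) := fun n => by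
      induction n with
      | zero => simpa using h0
      | succ n ih =>
        rw [Nat.cast_succ, add_mul, one_mul, ← sub_sub]
        refine out_shift ih (s := fun T => C.s.π a * T * C.s.π a⁻¹) (C.s.conj_mul a) (by simp)
          (fun A hA => ?_) (fun A hA => i a pa _ (Bd.ind hA)) (fun A hA => ?_) fun A hA => ?_
        · exact (conj_tr C.s a F.n₀ _).trans
            (congrArg (fun T => C.s.π F.n₀ * T * C.s.π F.n₀⁻¹) (i _ pa' _ (Bd.ind hA)))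
        · exact (conj_tr C.s a F.n₀ _).trans (congrArg (fun T => C.s.π F.n₀ * T * C.s.π F.n₀⁻¹)
            (shift_P H₁ (tr C.s _ H₁) (fun s => T.spd _ s _ pa' _ (m₁ s)) hA))
        · exact shift_P H₂ (tr C.s a H₂) (fun s => T.spd _ s _ pa _ (m₂ s)) hA
    have h2 : ((F.n₀ : YY F), ((1 : G) : YY F)) ∈ F.Op (PP F) (PP F) :=
      (h.op_mk le_rfl le_rfl _ _).2 (by simpa using h.one_mem)
    obtain ⟨-, -, -, -, Q, q1, Q', r1, -, -, q2, r2, h3, -⟩ := exists_box (δ := fun _ => 0) (c := 1)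
      (h.isOpen_Op le_rfl le_rfl) continuousOn_const h2 (a := 0) (b := 0) (by simp)
    have h4 := out_zero (isP_tr _ _ c1) d1 (geo h τ).cont hd h1 q2 r2 h3
    have m := fun (S : Set (YY F)) => (isOpen_interior (s := S)).measurableSet
    exact hn _ _ isOpen_interior ⟨_, mem_interior_iff_mem_nhds.2 r1⟩ isOpen_interior
      ⟨_, mem_interior_iff_mem_nhds.2 q1⟩ (zero_mono p.eb.isP (m Q') r2.measurableSet
        interior_subset (star_zero_iff (θ := tr C.s F.n₀ E) (m Q) r2.measurableSet (zero_mono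
          (isP_tr _ _ p.eb.isP) (m Q) q2.measurableSet interior_subset h4)))
  have ι2 : ∀ y : Aa r, (y ∘ F.ι) ∘ F.ι = y := fun y => funext fun i => congrArg y (h.ι_ι i)
  have k2 : ∀ a ∈ F.Z, L (op F (F.ℓ a)) = op F (L (F.ℓ a)) := fun a ha => by
    have e := h.ℓ_n₀B (h.z_mem_P (n₀_inv h ha) Finset.univ)
    rw [show F.n₀ * (F.n₀⁻¹ * a * F.n₀) * F.n₀⁻¹ = a by group] at e
    have e' : F.ℓ (F.n₀⁻¹ * a * F.n₀) = -op F (F.ℓ a) := by
      rw [e, map_neg, neg_neg, op_apply, ι2]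
    funext i
    have := key a ha (LinearMap.proj (F.ι i))
    rw [e', map_neg, map_neg, neg_add_eq_zero] at this
    simpa [op_apply, h.ι_ι] using this
  have k3 : L ∘ₗ op F = op F ∘ₗ L := (Pi.basisFun ℝ (Fin r)).ext fun i => by
    have := k2 _ (h.bZ i)
    rw [h.bℓ, show Pi.single i F.β = F.β • Pi.basisFun ℝ (Fin r) i by
      rw [Pi.basisFun_apply, ← Pi.single_smul', smul_eq_mul, mul_one]] at this
    simp only [map_smul] at this
    exact smul_right_injective _ h.β_pos.ne' this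
  exact LinearMap.congr_fun k3 x

theorem exists_j (hι : ∀ x, t x = 0 → t (x ∘ F.ι) = 0) :
    ∃ j : X →ₗ[ℝ] X, ∀ x, j (t x) = t (op F x) := by
  obtain ⟨s, hs⟩ := t.rangeRestrict.exists_rightInverse_of_surjective t.range_rangeRestrict
  obtain ⟨s', hs'⟩ := s.exists_extend
  refine ⟨t ∘ₗ op F ∘ₗ s', fun x => ?_⟩
  have e1 : s' (t x) = s (t.rangeRestrict x) := LinearMap.congr_fun hs' (t.rangeRestrict x)
  have e2 : t (s (t.rangeRestrict x)) = t x :=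
    congrArg Subtype.val (LinearMap.congr_fun hs (t.rangeRestrict x))
  have := hι (s' (t x) - x) (by rw [map_sub, e1, e2, sub_self])
  rw [← op_apply, map_sub, map_sub, sub_eq_zero] at this
  exact this

/-- the relation at the base points -/
theorem rel_base [FiniteDimensional ℝ X] (hc : CORE C (YY F) (YY F) (ZZ F)) (g : Gr F)
    (p : P1 F C z L kl E) (hl : LMY F C z E) (T : T0 F C z L E θ₀) (e : F.Ht H' t)
    (hι : ∀ x, t x = 0 → t (x ∘ F.ι) = 0) (x : Tx F C L E H' t θ) : ∃ c : X, ∀ P S, IsCompact P →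
      IsCompact S → P ×ˢ S ⊆ F.Op H' H' → c ∉ F.dd H' t '' (P ×ˢ S) →
        (tr C.s F.n₀ θ).P P * θ.P S = 0 := by
  have h := g.fl
  haveI := h.isClosed_P Finset.univ
  haveI := h.Ht_cl e
  obtain ⟨j, hj⟩ := exists_j hι
  have cq : ∀ τ : X →ₗ[ℝ] ℝ, Continuous fun ζ => τ (F.hq H' t ζ) := fun τ =>
    τ.continuous_of_finiteDimensional.comp (h.cont_hq e)
  have cd := h.cont_dir e Finset.univ
  let b := Module.finBasis ℝ X
  choose c hb using fun i => out_of hc g p hl T (b.coord i ∘ₗ t)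
    (x.isP.map (cq (b.coord i ∘ₗ j)).measurable) (x.isP.map (cq (b.coord i)).measurable)
    (fun s => by
      rw [show (b.coord i ∘ₗ t) ∘ₗ op F = (b.coord i ∘ₗ j) ∘ₗ t from
        LinearMap.ext fun y => congrArg (b.coord i) (hj y).symm]
      exact x.mem _ s) (x.mem _)
  refine ⟨b.equivFun.symm c, fun P S hP hS hs h0 => zero_cover (isP_tr _ _ x.isP) x.isP hP hS
    fun ζ hζ ζ' hζ' => ?_⟩
  have hq := hs (mk_mem_prod hζ hζ')
  obtain ⟨i, hi⟩ : ∃ i, b.coord i (F.dd H' t (ζ, ζ')) ≠ c i := by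
    by_contra h1
    push Not at h1
    exact h0 ⟨_, mk_mem_prod hζ hζ', (b.equivFun.eq_symm_apply).2 (funext h1)⟩
  rw [dd_eq h e hι hj hq, map_add, map_add] at hi
  obtain ⟨I, hI, J, hJ, Q, hQ, Q', hQ', o1, o2, q1, q2, q3, q4⟩ := exists_box
    (h.isOpen_Op le_rfl le_rfl) (geo h (b.coord i ∘ₗ t)).cont ((h.op_dir e e ζ ζ').2 hq) hi
  have m1 := (cq (b.coord i ∘ₗ j)).measurable o1.measurableSet
  have m2 := (cq (b.coord i)).measurable o2.measurableSet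
  have m3 := cd.measurable q1.measurableSet
  have m4 := cd.measurable q2.measurableSet
  refine ⟨_, inter_mem ((cq (b.coord i ∘ₗ j)).continuousAt hI) (cd.continuousAt hQ), _,
    inter_mem (cd.continuousAt hQ') ((cq (b.coord i)).continuousAt hJ), m1.inter m3, m4.inter m2, ?_⟩
  have := hb i I J Q Q' o1.measurableSet o2.measurableSet q1 q2 q3 q4
  rw [(isP_tr _ _ x.isP).P_inter m1 m3, x.isP.P_inter m4 m2]
  rw [POM.P, POM.P, POM.P, tr_f, tr_f, ← x.dir _ (Bd.ind q1.measurableSet),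
    ← x.dir _ (Bd.ind q2.measurableSet)] at this
  exact this

theorem rel_of [FiniteDimensional ℝ X] (hc : CORE C (YY F) (YY F) (ZZ F)) (g : Gr F)
    (p : P1 F C z L kl E) (hl : LMY F C z E) (T : T0 F C z L E θ₀) (s : Sp F L)
    (cs : Cs F L H H' t) (x : Tx F C L E H' t θ) (f : Fm C θ ϑ) : ∃ c, RelC F L t ϑ c := by
  have h := g.fl
  have e := cs.tgt
  haveI := h.Ht_cl e
  obtain ⟨c, hb⟩ := rel_base hc g p hl T e cs.opp x
  have hι : ∀ y, (t ∘ₗ L) y = 0 → (t ∘ₗ L) (y ∘ F.ι) = 0 := fun y hy => by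
    rw [LinearMap.comp_apply, s.opp]; exact cs.opp _ hy
  refine ⟨c, fun ζ w hq P S hP hS hs h0 => ?_⟩
  obtain ⟨g₁, rfl⟩ := QuotientGroup.mk_surjective ζ
  obtain ⟨g₂, rfl⟩ := QuotientGroup.mk_surjective w
  have h1 := (h.swap_Ω (x := g₁⁻¹ * g₂) (mul_assoc F.n₀ _ _ ▸ (h.op_mk cs.src.le cs.src.le _ _).1 hq)).1
  obtain ⟨u, hu, a, ha, e1⟩ := h.Ω_iff.1 h1
  -- `g₁ = g₂ v n₀ p`, `v ∈ U⁺`, `p ∈ P`
  have hv : F.n₀⁻¹ * u * F.n₀ ∈ F.Up := (h.n₀up _).2 (by simpa [mul_assoc] using hu)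
  have hp : (F.n₀ * F.n₀)⁻¹ * a ∈ PP F :=
    (PP F).mul_mem ((PP F).inv_mem (h.z_mem_P h.n₀_sq _)) ha
  obtain ⟨v, ev⟩ : ∃ v, v = F.n₀⁻¹ * u * F.n₀ := ⟨_, rfl⟩
  obtain ⟨a', ea⟩ : ∃ a', a' = (F.n₀ * F.n₀)⁻¹ * a := ⟨_, rfl⟩
  rw [← ev] at hv
  rw [← ea] at hp
  have e2 : g₁ = g₂ * v * F.n₀ * a' := by
    rw [ev, ea, ← inv_mul_cancel_left u a, ← e1]; group
  obtain ⟨z₀, hz, u₀, hu₀, e3⟩ := h.P_univ.1 hp
  obtain ⟨q, hq', e4⟩ := s.lat z₀ hz
  have pq := h.z_mem_P hq' Finset.univ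
  have e5 : F.ℓ q = L (F.ℓ a') := by rw [e4, e3, h.ℓ_up hu₀]
  let R := rtH (h.Ht_nrm e pq)
  have e6 : F.dd H (t ∘ₗ L) ((g₁ : G ⧸ H), (g₂ : G ⧸ H)) = t (F.ℓ q ∘ F.ι) := by
    rw [h.dd_mk cs.src hι ((h.op_mk cs.src.le cs.src.le _ _).1 hq), e2,
      show F.n₀ * (g₂ * v * F.n₀ * a')⁻¹ * g₂ = F.n₀ * a'⁻¹ * F.n₀⁻¹ * v⁻¹ by group,
      h.ℓ_up (F.Up.inv_mem hv), h.ℓ_n₀B ((PP F).inv_mem hp), h.ℓ_invP hp, e5, ← s.opp]
    exact congrArg (fun y => t (L y)) (funext fun i => neg_neg _)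
  have h2 := hb (R ⁻¹' P) S (R.isCompact_preimage.2 hP) hS (fun w hw => by
    have := (h.op_rt e pq (one_mem _) w.1 w.2).1 (by
      rw [rt_of_mem H'.one_mem]; exact hs (mk_mem_prod hw.1 hw.2))
    exact this) (by
    rintro ⟨w, hw, e7⟩
    have o : (w.1, w.2) ∈ F.Op H' H' := (h.op_rt e pq (one_mem _) w.1 w.2).1 (by
      rw [rt_of_mem H'.one_mem]; exact hs (mk_mem_prod hw.1 hw.2))
    have := h.dd_rt e cs.opp pq (one_mem _) o
    rw [rt_of_mem H'.one_mem, h.ℓ_one, map_zero, add_zero] at this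
    exact h0 ⟨_, mk_mem_prod hw.1 hw.2, by
      show _ = F.dd H (t ∘ₗ L) _ + c
      rw [e6, ← e7]; exact this⟩)
  have b1 := Bd.ind hP.measurableSet
  have b2 := Bd.ind hS.measurableSet
  rw [POM.P, POM.P, f.base _ _ b1, f.base _ _ b2, e2, ← C.s.conj_conj, ← C.s.conj_conj,
    x.mv _ hp q pq (by rw [e5]) _ b1, ← x.inv.inv v hv _ b2, C.s.conj_conj g₂ v, ← C.s.conj_mul]
  exact (congrArg (fun T => C.s.π (g₂ * v) * T * C.s.π (g₂ * v)⁻¹) h2).trans (by simp)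

end Vale.Agent.P092CT
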