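import Vale.Agent.P092CT.Rel
import Vale.Agent.P092BF.P1b
import Vale.Agent.P092ND.Nd

/-!
P092, block REL (D) (helper11): `iota` and `rel` from the abstract relation alone.
-/

set_option linter.all false

open scoped InnerProductSpace ENNReal NNReal
open MeasureTheory Filter Topology ContinuousLinearMap Set

namespace Vale.Agent.P092CT

open Vale.Agent.P092CP Vale.Agent.P092RD Vale.Agent.P092GK Vale.Agent.P092TH
open Vale.Agent.P092HR Vale.Agent.P092RK

variable {k : Type} [NontriviallyNormedField k] [ProperSpace k] {G K : Type} [Group G]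
  [TopologicalSpace G] [IsTopologicalGroup G] [LocallyCompactSpace G] [SecondCountableTopology G]
  [T2Space G] [MeasurableSpace G] [BorelSpace G] [NormedAddCommGroup K] [InnerProductSpace ℂ K]
  [CompleteSpace K] {μ : Measure G} [μ.IsHaarMeasure] {W : Set (K →L[ℂ] K)} {r : ℕ}
  {X : Type} [NormedAddCommGroup X] [NormedSpace ℝ X] {F : FlD k G r} {C : Cpl μ μ W} {z : ℕ → G}
  {L : Aa r →ₗ[ℝ] Aa r} {kl : G → G} {E : POM (YY F) K} {θ₀ : POM (ZZ F) K}
  {H H' : Subgroup G} {t : Aa r →ₗ[ℝ] X} {θ : POM (G ⧸ H') K} {ϑ : G ⧸ H → POM (G ⧸ H') K}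

theorem lmy (g : Gr F) (p : P1 F C z L kl E) : LMY F C z E := by
  obtain ⟨V, h1, h2⟩ := exists_compact_mem_nhds (1 : G)
  have hV : Bp μ V := ⟨h1, (Measure.measure_pos_of_mem_nhds μ h2).ne'⟩
  exact ⟨Ultrafilter.of atTop, V, ((1 : G) : YY F), Ultrafilter.of_le _, hV,
    fun B hB => p.lm g (Ultrafilter.of_le _) hB hV _⟩

theorem iota_c (hc : CORE C (YY F) (YY F) (ZZ F)) (g : Gr F) (p : P1 F C z L kl E)
    (T : T0 F C z L E θ₀) : ∀ x, L (x ∘ F.ι) = L x ∘ F.ι :=
  iota_of hc g p (lmy g p) (fun _ _ a b c d => nd_op g p.eb a b c d) T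

theorem rel_c [FiniteDimensional ℝ X] (hc : CORE C (YY F) (YY F) (ZZ F)) (g : Gr F)
    (p : P1 F C z L kl E) (T : T0 F C z L E θ₀) (s : Sp F L) (cs : Cs F L H H' t)
    (x : Tx F C L E H' t θ) (f : Fm C θ ϑ) : ∃ c, RelC F L t ϑ c :=
  rel_of hc g p (lmy g p) T s cs x f

end Vale.Agent.P092CT
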