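import Vale.Agent.P092CT.Com
import Vale.Agent.P092MA.Mag
import Vale.Agent.P092GK.LiftR

/-!
P092, block COM-TD (helper11): the translates commute, totally disconnected case.
-/

set_option linter.all false

open MeasureTheory

namespace Vale.Agent.P092CT

open Vale.Agent.P092CP Vale.Agent.P092RD Vale.Agent.P092GK Vale.Agent.P092HR

variable {k : Type} [NontriviallyNormedField k] [ProperSpace k] {G K : Type} [Group G]
  [TopologicalSpace G] [IsTopologicalGroup G] [LocallyCompactSpace G] [SecondCountableTopology G]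
  [T2Space G] [MeasurableSpace G] [BorelSpace G] [NormedAddCommGroup K] [InnerProductSpace ℂ K]
  [CompleteSpace K] {μ : Measure G} [μ.IsHaarMeasure] {W : Set (K →L[ℂ] K)} {r : ℕ}
  {F : FlD k G r} {C : Cpl μ μ W} {L : Aa r →ₗ[ℝ] Aa r} {E : POM (YY F) K} {θ₀ θ : POM (ZZ F) K}

theorem com_ac (ac : AC) (g : Gr F) (td : P092GB.TD G) (a : Sd F C L E θ₀ (NN F) .id θ) :
    Com C θ := fun x f f' hf hf' => by
  obtain ⟨ϑ, Θ, n, m, h⟩ := P092MA.mag_td g.fl td a
  have d : Gd F := ⟨g.fl, g.pan, g.hmg, g.two, td⟩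
  exact com_of_mag ac d d (.inl rfl) (.inl rfl) m a.tx.isP h x hf hf'

end Vale.Agent.P092CT
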